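import Crest.Agent.X262.Gwb59.Defs
import Crest.Agent.X262.Syz.Eqn3
import Crest.Agent.X262.End36.Emb

/-!
# Row 262, GW seam (helper59): the target of an embedding is smooth

* `Pre.ch`, `Pre.exists_lp_eq`, `Pre.ch_smooth`, `Pre.ch_frac` : the chart rings;
* `genStmt : GenStmt`, `smoStmt : SmoStmt`, `Pre.IsEq.smo`, `Pre.IsEq.gen`.
-/

set_option autoImplicit false
set_option linter.unusedSectionVars false

noncomputable section

namespace Crest.Agent.X262.Gwb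

open Crest.Agent.X277 Crest.Agent.X277.Lef Crest.Agent.X277.AN.G1 Crest.Agent.X277.BD
  Crest.Agent.X277.BD.Br
open Crest.Agent.X262.Coh Crest.Agent.X262.Vb
open Crest.Agent.X262.End36 (exists_at div_mem_at)

namespace Pre

variable {Y : SV} (m : Pre Y)

/-- the flat coordinates of the generic point -/
abbrev yv : Vr m.io → Y.F := fun v => m.y v.1 v.2

/-- a chart ring -/
abbrev ch (c : m.J → Vr m.io) : Subalgebra ℂ Y.F := Syz.mchart ℂ Sigma.fst m.yv c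

theorem adjoin_top : IntermediateField.adjoin ℂ {t | ∃ j i i', t = m.y j i / m.y j i'} = ⊤ := by
  let x : Y.Pt := Classical.arbitrary _
  have h1 : Algebra.adjoin ℂ (crdAt m.T x) ≤
      (IntermediateField.adjoin ℂ {t | ∃ j i i', t = m.y j i / m.y j i'}).toSubalgebra :=
    Algebra.adjoin_le fun _ ⟨j, i, i', _, h⟩ => IntermediateField.subset_adjoin _ _ ⟨j, i, i', h⟩
  have h2 : ∀ g ∈ (lp x).O,
      g ∈ IntermediateField.adjoin ℂ {t | ∃ j i i', t = m.y j i / m.y j i'} := fun g hg => by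
    obtain ⟨a, ha, c, hc, h3, h4⟩ := m.emb x g hg
    rw [eq_div_of_mul_eq (LP.ne_zero_of_ne h3) h4]
    exact div_mem (h1 ha) (h1 hc)
  have := (lp_fin x).frac
  refine eq_top_iff.2 fun z _ => ?_
  obtain ⟨a, c, -, rfl⟩ := IsFractionRing.div_surjective (A := (lp x).O) z
  exact div_mem (h2 a a.2) (h2 c c.2)

variable {m} {c : m.J → Vr m.io}

theorem exists_ch (hc : ∀ j, (c j).1 = j) : ∃ c' : ∀ j, m.io j, c = fun j => ⟨j, c' j⟩ := by
  have h : ∀ j, ∃ i : m.io j, c j = ⟨j, i⟩ := fun j => by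
    have h1 := hc j
    generalize c j = v at h1
    obtain ⟨j', i⟩ := v
    subst h1
    exact ⟨i, rfl⟩
  choose c' h using h
  exact ⟨c', funext h⟩

theorem mem_ch (c : ∀ j, m.io j) (j : m.J) (i : m.io j) :
    m.y j i / m.y j (c j) ∈ m.ch fun j => ⟨j, c j⟩ := Algebra.subset_adjoin ⟨⟨j, i⟩, rfl⟩

theorem ch_frac (hc : ∀ j, (c j).1 = j) (hy : ∀ j, m.yv (c j) ≠ 0) :
    IsFractionRing (m.ch c) Y.F := by
  obtain ⟨c, rfl⟩ := exists_ch hc
  have h1 : ⊤ ≤ IntermediateField.adjoin ℂ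
      (Set.range fun v : Vr m.io => m.yv v / m.yv ⟨v.1, c v.1⟩) := by
    rw [← m.adjoin_top, IntermediateField.adjoin_le_iff]
    rintro _ ⟨j, i, i', rfl⟩
    rw [← div_div_div_cancel_right₀ (hy j)]
    exact div_mem (IntermediateField.subset_adjoin _ _ ⟨⟨j, i⟩, rfl⟩)
      (IntermediateField.subset_adjoin _ _ ⟨⟨j, i'⟩, rfl⟩)
  refine IsFractionRing.of_field _ _ fun z => ?_
  obtain ⟨a, ha, b, hb, h⟩ :=
    IntermediateField.mem_adjoin_iff_div.1 (h1 (IntermediateField.mem_top (x := z)))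
  exact ⟨⟨a, ha⟩, ⟨b, hb⟩, h⟩

/-- a localisation of a chart ring is the local ring of a point -/
theorem exists_lp_eq (hc : ∀ j, (c j).1 = j) (hy : ∀ j, m.yv (c j) ≠ 0) {L : LP Y.F}
    (h : L.Of (m.ch c)) : ∃ x : Y.Pt, lp x = L := by
  obtain ⟨c, rfl⟩ := exists_ch hc
  obtain ⟨V, h2, h3⟩ := Cns.exists_val_dom L
  obtain ⟨x, hx⟩ := Cns.exists_ov Y.P (V := V) fun r => h2 _ (algebraMap_mem _ r)
  have hv : ∀ f ∈ (lp x).O, f ∈ L.O → L.v f = (lp x).v f := fun f h1 h4 => by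
    by_contra hne
    refine (h3 _ (sub_mem h4 (algebraMap_mem _ (L.v f)))).1 (hx.un ?_) (LP.v_sub_v h4)
    unfold ev
    rw [LP.v_sub h1 (algebraMap_mem _ _), LP.v_alg]
    exact sub_ne_zero.2 (Ne.symm hne)
  have h5 : ∀ j i, At (m.T j).bd x (m.y j i) → L.v (m.y j i / m.y j (c j)) ≠ 0 := fun j i hi =>
    (h3 _ (h.le (mem_ch c j i))).1 ⟨div_ne_zero hi.ne (hy j), h2 _ (h.le (mem_ch c j i)), by
      rw [inv_div]; exact hx _ (div_mem_at hi _)⟩
  have h6 : ∀ j i i', At (m.T j).bd x (m.y j i') → m.y j i / m.y j i' ∈ L.O := fun j i i' hi => by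
    rw [← div_div_div_cancel_right₀ (hy j)]
    exact LP.div_mem (h.le (mem_ch c j i)) (h5 j i' hi)
  have h7 : Algebra.adjoin ℂ (crdAt m.T x) ≤ (lp x).O :=
    Algebra.adjoin_le fun _ ⟨_, _, _, hi, e⟩ => e ▸ div_mem_at hi _
  have h8 : Algebra.adjoin ℂ (crdAt m.T x) ≤ L.O :=
    Algebra.adjoin_le fun _ ⟨j, i, i', hi, e⟩ => e ▸ h6 j i i' hi
  refine ⟨x, Cns.eq_of_dom_of (Cns.of_dom ⟨h7, m.emb x⟩ h8 fun a ha => hv a (h7 ha) (h8 ha)) h
    (Algebra.adjoin_le ?_)⟩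
  rintro _ ⟨⟨j, i⟩, rfl⟩
  obtain ⟨l, hl⟩ := exists_at (m.reg j) x
  change m.y j i / m.y j (c j) ∈ (lp x).O
  rw [← div_div_div_cancel_right₀ (hl.ne : m.y j l ≠ 0)]
  refine LP.div_mem (div_mem_at hl i) ?_
  exact (hv _ (div_mem_at hl _) (h6 j _ l hl)).symm.trans_ne (LP.ne_of_inv_mem (h6 j _ l hl)
    (div_ne_zero (hy j) hl.ne) (by rw [inv_div]; exact h.le (mem_ch c j l)))

theorem ch_smooth (c : m.J → Vr m.io) (hc : ∀ j, (c j).1 = j) (hy : ∀ j, m.yv (c j) ≠ 0) :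
    Algebra.FormallySmooth ℂ (m.ch c) := by
  have : Algebra.FiniteType ℂ (m.ch c) :=
    Algebra.FiniteType.of_surjective _ (Syz.mpi_surj (k := ℂ) (blk := Sigma.fst) m.yv c)
  have := Cns.smooth_of_lp (m.ch c) fun L h => by
    obtain ⟨x, rfl⟩ := exists_lp_eq hc hy h
    exact Cns.lp_fs x
  infer_instance

theorem nz_vr {E : Type} [Field E] {z : Pnt m.io E} (hz : NZ z) (j : m.J) :
    ∃ v : Vr m.io, v.1 = j ∧ z v.1 v.2 ≠ 0 := (hz j).elim fun i hi => ⟨⟨j, i⟩, rfl, hi⟩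

theorem card_vr : Fintype.card (Vr m.io) = adim m.io + Fintype.card m.J := by
  rw [Fintype.card_sigma, adim, ← Finset.card_univ, Finset.card_eq_sum_ones,
    ← Finset.sum_add_distrib]
  refine Finset.sum_congr rfl fun j _ => ?_
  have := Fintype.card_pos_iff.2 ⟨(nz_y (m := m) j).choose⟩
  omega

variable {A : Type} [Fintype A] {T : Tgt m.io A}

theorem IsEq.rank_add [DecidableEq A] (h : m.IsEq T) :
    (Syz.jac T.F m.yv).rank + Y.dim = adim m.io := by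
  choose c hc hy using nz_vr (nz_y (m := m))
  have := ch_frac hc hy
  have h1 := Syz.rank_jac_add (blk := Sigma.fst) T.hom h hc hy
  rw [card_vr, add_right_comm] at h1
  exact Nat.add_right_cancel h1

theorem dim_add_cod : Y.dim + m.cod = adim m.io := by
  have := m.tgt_isEq.rank_add
  unfold cod
  omega

theorem IsEq.gen (h : m.IsEq T) : GenPt T m.cod m.y :=
  ⟨nz_y, h.on_iff.2 on_y, m.adjoin_top, dim_add_cod,
    fun q κ hq h0 _ _ _ _ _ h1 => h.on_iff.1 h1 q κ hq h0⟩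

theorem IsEq.smo (h : m.IsEq T) (h0 : ∃ a, T.F a ≠ 0) : Smo T m.cod := by
  classical
  obtain ⟨r, ρ, e, h1, h2⟩ := Syz.exists_isSyz_nat (blk := Sigma.fst) T.F T.k T.hom
  refine ⟨h0, ⟨r, ρ, e, h2, h1.rel⟩, fun E _ _ z hz hT => ⟨?_, fun σ hσ => ?_⟩⟩
  · have h3 := Syz.rank_jac_eq (blk := Sigma.fst) T.hom h ch_smooth (nz_vr hz) hT
    have h6 : Module.finrank E (T.Nm z) = (Syz.jac T.F fun v : Vr m.io => z v.1 v.2).rank := by
      rw [Matrix.rank, ← Matrix.toLin'_apply']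
      rfl
    exact (h6.trans h3).trans
      (Nat.add_right_cancel (h.rank_add.trans (dim_add_cod.symm.trans (add_comm _ _))))
  · obtain ⟨S, hS⟩ := Syz.smAt_cone (blk := Sigma.fst) T.hom h ch_smooth (nz_vr hz) hT
    obtain ⟨v, hv⟩ := (h1.ker_iff hT hS σ).1 (funext hσ)
    exact ⟨v, hv⟩

end Pre

theorem Emb.exists_ne {Y : SV} (m : Emb Y) {A : Type} {T : Tgt m.toPre.io A}
    (h : m.toPre.IsEq T) : ∃ a, T.F a ≠ 0 := by
  obtain ⟨q, κ, h0, h1, h2⟩ := m.cod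
  by_contra h3
  push Not at h3
  have h4 : q ∈ Ideal.span (Set.range T.F) := h.ge (Syz.mem_hI h1 h2)
  exact h0 (Ideal.span_eq_bot.2 (Set.forall_mem_range.2 h3) ▸ h4 :)

/-- **the generic point** -/
theorem genStmt : GenStmt := fun _ m => m.tgt_isEq.gen

/-- **smoothness** -/
theorem smoStmt : SmoStmt := fun _ m => m.tgt_isEq.smo (m.exists_ne m.tgt_isEq)

end Crest.Agent.X262.Gwb
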