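import Crest.Agent.X262.Gwb59.End
import Crest.Agent.X262.Gwb59.Smo
import Crest.Agent.X262.Gwb.Mst
import Crest.Agent.X262.Syz.Nv

/-!
# Row 262, GW seam (helper59): concavity at class level

* `rs_chg`, `Pre.res`, `Pre.resD` : restriction of an embedding, with the same index sets;
* `sat_xT` : the equations of the concave end;
* `Vir.conc : ConcF → ConcStmt V.gw`.
-/

set_option autoImplicit false
set_option linter.unusedSectionVars false

noncomputable section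

namespace Crest.Agent.X262.Gwb

open Crest.Agent.X277 Crest.Agent.X277.Lef Crest.Agent.X277.AN.G1 Crest.Agent.X277.BD
  Crest.Agent.X277.BD.Br
open Crest.Agent.X262.Coh Crest.Agent.X262.Vb Crest.Agent.X262.Qn Crest.Agent.X262.End66
open Crest.Agent.X262.End36 (exists_at div_mem_at)
open Crest.Agent.X262.Conc78 (Cn Cd ConcF)
open Crest.Agent.X262.Syz (Sat Rst)

variable {X Y Z : SV}

/-- two restrictions of a tuple are proportional -/
theorem rs_chg {μ : Hom X Y} {ν : Hom X Z} {t : Tup Y.F} {s : Tup Z.F} {p : Tup X.F}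
    (h0 : ∃ i, p.y i ≠ 0) (h1 : Rs μ t p) (h2 : Rs ν s p) {u : Y.F}
    (hu : ∀ l, t.y l / u ∈ μ.p.O) : Rs ν s ⟨t.io, fun l => μ.p.π (t.y l / u)⟩ := by
  obtain ⟨e₁, u₁, c₁, h3, h4⟩ := h1
  obtain ⟨e₂, u₂, c₂, h5, h6⟩ := h2
  obtain ⟨i, hi⟩ := h0
  obtain ⟨i, rfl⟩ := e₁.surjective i
  refine ⟨e₂.trans e₁.symm, u₂, μ.p.π (t.y i / u) / p.y (e₁ i) * c₂, h5, fun l => ?_⟩
  rw [mul_assoc, ← h6, Equiv.trans_apply]
  obtain ⟨l, hl⟩ := e₁.surjective (e₂ l)
  rw [← hl, Equiv.symm_apply_apply, div_mul_eq_mul_div, eq_div_iff hi, h4, h4, mul_left_comm,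
    mul_left_comm _ c₁, ← μ.p.π_mul (hu _) (h3 _), ← μ.p.π_mul (hu _) (h3 _)]
  congr 2
  ring

namespace Pre

variable (m : Pre Y) (μ : Hom X Y)

theorem exists_den (j : m.J) : ∃ u, (∀ l, m.y j l / u ∈ μ.p.O) ∧ ∃ l, μ.p.π (m.y j l / u) ≠ 0 := by
  obtain ⟨x⟩ : Nonempty X.Pt := inferInstance
  obtain ⟨i, hi⟩ := exists_at (m.reg j) (μ.map x)
  refine ⟨m.y j i, fun l => μ.mem_O (div_mem_at hi l), i, ?_⟩
  rw [div_self (show m.y j i ≠ 0 from hi.ne), Plc.π_one]
  exact one_ne_zero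

/-- the denominators -/
def den (j : m.J) : Y.F := (m.exists_den μ j).choose

/-- the restricted tuples -/
def resT (j : m.J) : Tup X.F := ⟨m.io j, fun l => μ.p.π (m.y j l / m.den μ j)⟩

theorem rs_resT (j : m.J) : Rs μ (m.T j) (m.resT μ j) :=
  ⟨Equiv.refl _, m.den μ j, 1, (m.exists_den μ j).choose_spec.1, fun _ => (one_mul _).symm⟩

theorem resT_ne (j : m.J) : ∃ l, (m.resT μ j).y l ≠ 0 := (m.exists_den μ j).choose_spec.2

variable {μ} (hμ : IsEmb μ)

/-- the restriction of an embedding -/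
def res : Pre X where
  J := m.J
  T := m.resT μ
  reg j := End36.rs_reg (m.rs_resT μ j) (m.resT_ne μ j) (m.reg j)
  emb := End36.IsE.res hμ m.emb (g := id) (m.rs_resT μ) (m.resT_ne μ)

/-- the data of the restriction -/
def resD : RsD μ m (m.res hμ) id :=
  ⟨fun _ => Equiv.refl _, m.den μ, fun _ => 1, fun j => (m.exists_den μ j).choose_spec.1,
    fun _ _ => (one_mul _).symm⟩

theorem rst_res : Rst μ m (m.res hμ).y := Syz.rst_rsD (m.resD hμ)

end Pre

/-- the equations of the concave end -/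
theorem sat_xT {μ : Hom X Y} {m : Pre Y} {y' : Pnt m.io X.F} (h : Rst μ m y') (n : Cn m.io)
    (cv : ∀ a b, m.y n.jC (n.f (some (a, b))) = m.y n.jU a * m.y n.jS b)
    (hD : IsDv μ ((m.T n.jC).bd - ((m.T n.jU).bd + (m.T n.jS).bd))) :
    Sat (sum m.tgt n.xT) y' := by
  classical
  have key : ∀ (x : Y.Pt) (c : ∀ j, m.io j), (∀ j, At (m.T j).bd x (m.y j (c j))) →
      At (-((m.T n.jC).bd - ((m.T n.jU).bd + (m.T n.jS).bd))) x
        (m.y n.jC (n.f (some (c n.jU, c n.jS))) / m.y n.jC (c n.jC)) := fun x c hx => by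
    have h3 := ((hx n.jC).sub ((hx n.jU).add (hx n.jS))).neg
    rwa [inv_div, ← cv] at h3
  have key' : ∀ (x : X.Pt) (c : ∀ j, m.io j), (∀ j, At (m.T j).bd (μ.map x) (m.y j (c j))) →
      ∀ f ∈ (lp (μ.map x)).O, μ.p.π f = 0 ↔
        f / (m.y n.jC (n.f (some (c n.jU, c n.jS))) / m.y n.jC (c n.jC)) ∈ (lp (μ.map x)).O := by
    intro x c hx f hf
    obtain ⟨t, -, h1, h2⟩ := hD.eqn x
    have h4 := h1.neg
    rw [inv_inv] at h4
    exact (h2 f hf).trans ⟨h4.chg (key _ c hx), (key _ c hx).chg h4⟩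
  refine Syz.sat_sub h (Syz.sat_pre m) (fun a => Ideal.subset_span ⟨.inl a, rfl⟩) ?_
    fun x c hc hx h0 => ?_
  · rintro (a | ⟨a, b⟩)
    · exact h.on (Syz.sat_pre m).on a
    · obtain ⟨x⟩ : Nonempty X.Pt := inferInstance
      obtain ⟨c, hc, hx⟩ := Syz.exists_sec m (μ.map x)
      obtain ⟨c, rfl⟩ := Pre.exists_ch hc
      refine (h.π_eq_zero hc hx (n.mh_xi (a, b))).1 ?_
      rw [Cn.xi, MvPolynomial.aeval_X]
      refine (key' x c hx _ (div_mem_at (hx n.jC) _)).2 ?_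
      change m.y n.jC (n.f (some (a, b))) / m.y n.jC (c n.jC) / _ ∈ _
      rw [div_div_div_cancel_right₀ (show m.y n.jC (c n.jC) ≠ 0 from (hx n.jC).ne), cv, cv,
        mul_div_mul_comm]
      exact mul_mem (div_mem_at (hx n.jU) a) (div_mem_at (hx n.jS) b)
  · obtain ⟨c, rfl⟩ := Pre.exists_ch hc
    have e : MvPolynomial.aeval (Syz.afc m fun j => ⟨j, c j⟩)
        ((sum m.tgt n.xT).F (.inr (c n.jU, c n.jS))) =
        m.y n.jC (n.f (some (c n.jU, c n.jS))) / m.y n.jC (c n.jC) := MvPolynomial.aeval_X _ _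
    obtain ⟨x', rfl⟩ : x ∈ Set.range μ.map := by
      by_contra hn
      have h2 := (key x c hx).ev_div_ne (hD.off x hn).neg
      rw [inv_one, div_one, ← e] at h2
      exact h2 (h0 _)
    refine ⟨x', rfl, fun f hf hπ => ⟨Pi.single (.inr (c n.jU, c n.jS))
      (f / (m.y n.jC (n.f (some (c n.jU, c n.jS))) / m.y n.jC (c n.jC))), fun b => ?_, ?_⟩⟩
    · rw [Pi.single_apply]
      split_ifs
      exacts [(key' x' c hx f hf).1 hπ, zero_mem _]
    · rw [Finset.sum_eq_single (.inr (c n.jU, c n.jS)) (fun b _ hb => by simp [hb]) (by simp),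
        Pi.single_eq_same, e, div_mul_cancel₀ _ (key _ c hx).ne]

/-- **concavity** -/
theorem Vir.conc {C : Coh.Th} {B : Hb.Th} (V : Vir C B) (hF : ConcF) :
    ConcStmt V.gw := by
  intro Y S W i m n p hS d d' d1 d2 d3 d4 x l hl hc
  rcases lt_or_ge (Multiset.card l) 2 with h2 | h2
  · refine ⟨1, one_ne_zero, ?_⟩
    rw [V.low m d _ (by simpa using h2), V.low n d' _ (by simpa using h2)]
    simp
  rw [V.itg_op m d (by simpa using h2), V.itg_op n d' (by simpa using h2), ← Multiset.map_cons,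
    ← Multiset.map_cons (fun z : C.H W × C.H Y × C.H Y => z.2.2)]
  obtain ⟨M, _, _, a, ha, hM⟩ := Ev.exists_idx (x ::ₘ l)
  have hi := p.dv.emb
  let P := m.toPre.res hi
  obtain ⟨D⟩ : Nonempty (RsD (fst Y S) n.toPre P fun k => p.e (some (some k))) :=
    exists_rsD fun k => (p.rsY k).elim fun t ht =>
      rs_chg ht.1.1 ht.2.1 ht.2.2 (m.toPre.exists_den i _).choose_spec.1
  have hr : Rs (snd Y S) (ownT S) (P.T (p.e (some none))) := p.rsS.elim fun t ht =>
    rs_chg ht.1.1 ht.2.1 ht.2.2 (m.toPre.exists_den i _).choose_spec.1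
  let r : Cd n.toPre.io m.toPre.io := ⟨p.e, D.e, p.jU, p.f⟩
  have h3 : Sat (sum m.tgt r.cn.xT) P.y := sat_xT (m.toPre.rst_res hi) r.cn p.cv p.dv
  have h4 : ∀ b, pv m.toPre.y (r.cn.uT.F b) = 0 := fun b => by
    simp only [pv, Cn.uT, Cn.xi, Cn.tp, map_sub, map_mul, MvPolynomial.aeval_X]
    exact sub_eq_zero.2 ((congrArg (· * _) (p.cv b.1.1 b.1.2)).trans
      ((mul_comm _ _).trans (congrArg (· * _) (p.cv b.2.1 b.2.2)).symm))
  have h5 : C.pb (snd Y S) (C.hc S) = P.h C (p.e (some none)) :=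
    End36.rs_pb_c1 V.man hr (P.reg _).1 (End36.reg_own S)
  obtain ⟨eS, u, c, -, h6⟩ := hr
  have h7 : Sat (sum (r.tgt n.tgt) r.cn.xT) P.y := Syz.sat_cd hS n.toPre r P.nz_y
    (Syz.rst_rsD D) eS u c h6 fun q => by
      have := h3.on (.inr q)
      rwa [show (sum m.tgt r.cn.xT).F (.inr q) = r.cn.xi q from rfl, pv, Cn.xi,
        MvPolynomial.aeval_X] at this
  have h8 : (d : m.J → ℕ) = r.up d' := funext fun j => by
    obtain ⟨_ | _ | k, rfl⟩ := p.e.surjective j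
    exacts [d1.trans (r.up_C _).symm, d2.trans (r.up_S _).symm, (d3 k).trans (r.up_k _ k).symm]
  rw [← ha, Multiset.map_map, Multiset.map_map, Ev.gw_eq (V.a0 m d), Ev.gw_eq (V.a0 n d'), h8]
  have h11 := hF B V.hB r m.tgt _ n.tgt _ d' d4 (V.good m _) (V.good n _)
    (fun b => loc_of_mem ((Syz.cut_pre m.toPre).mem (r.cn.uT.hom b) (h4 b))) (h3.same h7)
  refine @h11 (Syz.nv_dv hi (by have := p.dv.dim_eq; omega) _ (m.toPre.rst_res hi) h4 h3) M _
    (fun q => (V.I.e m.toPre).fam (a q).1) (fun q => (V.I.e n.toPre).fam (a q).2.1)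
    (fun q => (V.I.e n.toPre).fam (a q).2.2) (fun _ => V.hI.cls _ _) (fun _ => V.hI.cls _ _)
    (fun _ => V.hI.cls _ _) (fun q E _ _ _ z hz hO => ?_) ?_
  · have h9 : P.On z := (h3.on_iff hz).1 hO
    have h10 := congrArg (V.I.ev P E z)
      (hl (a q) (ha ▸ Multiset.mem_map_of_mem _ (Finset.mem_univ q)))
    rw [map_add, map_mul, V.hI.rs (m.toPre.resD hi) E z hz h9, V.hI.rs D E z hz h9,
      V.hI.rs D E z hz h9, h5, V.hI.hc P (p.e (some none)) E z hz h9] at h10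
    exact h10
  · rw [hM, Multiset.card_cons, ← add_assoc, ← hc]
    exact (Fintype.card_congr eS).symm.trans (Fintype.card_fin _)

end Crest.Agent.X262.Gwb
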