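import Crest.Agent.X262.Gwb.Defs
import Crest.Agent.X262.Coh.Basic
import Crest.Agent.X262.Qn.Of
import Crest.Agent.X262.Qn.Hy
import Crest.Agent.X262.Syz.Eqn2

/-!
# Row 262, GW seam (helper59): the instance, definitions

* `Pre.io`, `Pre.y`, `Pre.On`, `Pre.tgt`, `Pre.cod` : the target of an embedding;
* `RsD`, `RsD.pt` : data of a restriction, renumbering of points;
* `Inst`, `Inst.Ax` : evaluation of classes at field valued points;
* `SmoStmt`, `GenStmt`, `Vir` (all inputs), `Vir.gw : Gw C`, `Vir.itg_op`.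
-/

set_option autoImplicit false
set_option linter.unusedSectionVars false

noncomputable section

namespace Crest.Agent.X262.Gwb

open Crest.Agent.X277 Crest.Agent.X277.BD
open Crest.Agent.X262.Coh Crest.Agent.X262.Vb Crest.Agent.X262.Qn

namespace Pre

variable {Y : SV} (m : Pre Y)

/-- the index sets of the coordinates -/
abbrev io : m.J → Type := fun j => (m.T j).io

/-- the generic point -/
def y : Pnt m.io Y.F := fun j i => (m.T j).y i

/-- the point satisfies all multihomogeneous relations of the tuples -/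
def On {E : Type} [Field E] [Algebra ℂ E] (z : Pnt m.io E) : Prop :=
  ∀ q κ, MH q κ → pv m.y q = 0 → pv z q = 0

/-- the equations generate the ideal of the multihomogeneous relations -/
def IsEq {A : Type} (T : Tgt m.io A) : Prop :=
  Ideal.span (Set.range T.F) = Syz.hI ℂ Sigma.fst fun v : Vr m.io => m.y v.1 v.2

theorem exists_tgt : ∃ (r : ℕ) (T : Tgt m.io (Fin r)), m.IsEq T := by
  obtain ⟨r, F, k, h1, h2⟩ := Syz.exists_eqns ℂ Sigma.fst fun v : Vr m.io => m.y v.1 v.2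
  exact ⟨r, ⟨F, k, h1⟩, h2⟩

/-- the target -/
def tgt : Tgt m.io (Fin m.exists_tgt.choose) := m.exists_tgt.choose_spec.choose

theorem tgt_isEq : m.IsEq m.tgt := m.exists_tgt.choose_spec.choose_spec

/-- the codimension -/
def cod : ℕ := adim m.io - Y.dim

variable {m} {E : Type} [Field E] [Algebra ℂ E] {z : Pnt m.io E}

theorem IsEq.on_iff {A : Type} [Fintype A] {T : Tgt m.io A} (h : m.IsEq T) : T.On z ↔ m.On z := by
  classical
  exact ⟨fun h1 _ _ hq h0 => Syz.on_hI h h1 (Syz.mem_hI hq h0),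
    fun h1 a => h1 _ _ (T.hom a) (Syz.aeval_eqn h a)⟩

theorem on_iff : m.tgt.On z ↔ m.On z := m.tgt_isEq.on_iff

theorem on_y : m.On m.y := fun _ _ _ h => h

theorem nz_y : NZ m.y := fun j => (m.reg j).1

end Pre

/-- the data of `Rs μ (n.T k) (m.T (g k))` for all `k` -/
structure RsD {X Y : SV} (μ : Hom X Y) (n : Pre Y) (m : Pre X) (g : n.J → m.J) where
  /-- the renumbering -/
  e : ∀ k, n.io k ≃ m.io (g k)
  /-- the denominators -/
  u : n.J → Y.F
  /-- the scalars -/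
  c : n.J → X.F
  mem : ∀ k i, n.y k i / u k ∈ μ.p.O
  eq : ∀ k i, m.y (g k) (e k i) = c k * μ.p.π (n.y k i / u k)

theorem exists_rsD {X Y : SV} {μ : Hom X Y} {n : Pre Y} {m : Pre X} {g : n.J → m.J}
    (h : ∀ k, Rs μ (n.T k) (m.T (g k))) : Nonempty (RsD μ n m g) := by
  choose e u c h1 h2 using h
  exact ⟨⟨e, u, c, h1, h2⟩⟩

/-- the image of a point -/
def RsD.pt {X Y : SV} {μ : Hom X Y} {n : Pre Y} {m : Pre X} {g : n.J → m.J} (D : RsD μ n m g)
    {E : Type} (z : Pnt m.io E) : Pnt n.io E := fun k i => z (g k) (D.e k i)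

variable (C : Coh.Th) (B : Hb.Th)

/-- evaluation of classes at field valued points -/
structure Inst where
  /-- evaluation (any algebra map if the point is not on the variety) -/
  ev : ∀ {Y : SV} (m : Pre Y) (E : Type) [Field E] [Algebra ℂ E], Pnt m.io E →
    (C.H Y →ₐ[ℂ] B.H E)

variable {C B}

/-- the evaluation record of an embedding -/
def Inst.e (I : Inst C B) {Y : SV} (m : Pre Y) : Ev B m.io (C.H Y) :=
  ⟨fun E _ _ => I.ev m E, C.itg Y, m.h C, C.typ Y⟩

/-- the facts about the evaluation -/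
structure Inst.Ax (I : Inst C B) : Prop where
  cls : ∀ {Y : SV} (m : Pre Y) (a : C.H Y), Cls B m.tgt ((I.e m).fam a)
  hc : ∀ {Y : SV} (m : Pre Y) (j : m.J) (E : Type) [Field E] [Algebra ℂ E]
    [Algebra.EssFiniteType ℂ E] (z : Pnt m.io E), NZ z → m.On z →
    I.ev m E z (m.h C j) = B.c1 (ln z j)
  ty : ∀ {Y : SV} (m : Pre Y) {p q : ℕ} {a : C.H Y}, a ∈ C.typ Y p q → ∀ (E : Type) [Field E]
    [Algebra ℂ E] [Algebra.EssFiniteType ℂ E] (z : Pnt m.io E), NZ z → m.On z →
    I.ev m E z a ∈ B.ty E p q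
  itg : ∀ {Y : SV} (m : Pre Y) (a : C.H Y), B.itg Y.F (I.ev m Y.F m.y a) = C.itg Y a
  rs : ∀ {X Y : SV} {μ : Hom X Y} {n : Pre Y} {m : Pre X} {g : n.J → m.J} (D : RsD μ n m g)
    (E : Type) [Field E] [Algebra ℂ E] [Algebra.EssFiniteType ℂ E] (z : Pnt m.io E), NZ z →
    m.On z → ∀ a, I.ev m E z (C.pb μ a) = I.ev n E (D.pt z) a
  diag : ∀ {Y : SV} (m : Emb Y) {ι : Type} [Fintype ι] (u u' : ι → C.H Y),
    (∀ a b, C.itg Y (a * b) = ∑ l, C.itg Y (a * u l) * C.itg Y (b * u' l)) →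
    Diag B m.tgt (fun l => (I.e m.toPre).fam (u l)) fun l => (I.e m.toPre).fam (u' l)

/-- the target of an embedding is smooth -/
def SmoStmt : Prop := ∀ (Y : SV) (m : Emb Y), Smo m.tgt m.toPre.cod

/-- the generic point -/
def GenStmt : Prop := ∀ (Y : SV) (m : Pre Y), GenPt m.tgt m.cod m.y

variable (C B) in
/-- all inputs of the construction -/
structure Vir where
  /-- the evaluation -/
  I : Inst C B
  hI : I.Ax
  man : C.MAN
  pd : C.PD
  typ : C.TYP
  hB : B.Ax
  smo : SmoStmt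
  gen : GenStmt
  ax0 : Ax0Stmt
  axS : AxSStmt
  deg0 : Deg0Stmt
  wdvv : WdvvStmt

theorem exists_dual {H : Type} [CommRing H] [Algebra ℂ H] [FiniteDimensional ℂ H]
    (φ : H →ₗ[ℂ] ℂ) (h : ∀ a, (∀ b, φ (a * b) = 0) → a = 0) :
    ∃ (ι : Type) (_ : Fintype ι) (u u' : ι → H),
      ∀ a b, φ (a * b) = ∑ l, φ (a * u l) * φ (b * u' l) := by
  let p : H →ₗ[ℂ] Module.Dual ℂ H := (LinearMap.mul ℂ H).compr₂ φ
  have hi : Function.Injective p := (injective_iff_map_eq_zero p).2 fun a ha =>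
    h a fun b => LinearMap.congr_fun ha b
  have hs : Function.Surjective p :=
    (LinearMap.injective_iff_surjective_of_finrank_eq_finrank
      (Subspace.dual_finrank_eq).symm).1 hi
  let b := Module.finBasis ℂ H
  choose u' hu using fun l => hs (b.coord l)
  refine ⟨_, inferInstance, b, u', fun x y => ?_⟩
  conv_lhs => rw [← b.sum_repr y, Finset.mul_sum, map_sum]
  refine Finset.sum_congr rfl fun l _ => ?_
  rw [mul_smul_comm, map_smul, smul_eq_mul, mul_comm, mul_comm y]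
  exact congrArg _ (LinearMap.congr_fun (hu l) y).symm

namespace Vir

variable (V : Vir C B) {Y : SV} (m : Emb Y)
include V

theorem good (d : m.J → ℕ) : Good m.tgt m.toPre.cod d := (V.smo Y m).good d

theorem a0 (d : m.J → ℕ) : Ax0 B m.tgt d := V.ax0 B V.hB _ _ d (V.good m d)

theorem aS (d : m.J → ℕ) : AxS B m.tgt d := V.axS B V.hB _ _ d (V.good m d)

theorem evAx : (V.I.e m.toPre).Ax m.tgt m.toPre.cod where
  cls := V.hI.cls _
  hc j E _ _ _ y h1 h2 := V.hI.hc _ j E y h1 (Pre.on_iff.1 h2)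
  ty ha E _ _ _ y h1 h2 := V.hI.ty _ ha E y h1 (Pre.on_iff.1 h2)
  gen := ⟨Y.F, _, _, inferInstance, m.y, V.gen Y _, V.hI.itg _⟩
  pd := (V.pd Y).2
  diag := by
    have := (V.pd Y).1
    obtain ⟨ι, _, u, u', h⟩ := exists_dual (C.itg Y) (V.pd Y).2
    exact ⟨ι, _, u, u', h, V.hI.diag m u u' h⟩
  typ_top := (iSup_prod (f := fun pq : ℕ × ℕ => C.typ Y pq.1 pq.2)).symm.trans
    (V.typ.int Y).submodule_iSup_eq_top
  typ_one := V.typ.one_mem V.man V.pd Y
  typ_h j := V.typ.c1 Y _ (m.reg j).2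
  typ_mul ha hb := V.typ.mul Y ha hb
  typ_itg ha h := V.typ.itg_typ V.man (fun h1 => h (h1.1.trans h1.2.symm)) ha

/-- the numbers of an embedded variety -/
abbrev num : Num m.J (C.H Y) := (V.I.e m.toPre).num m.tgt

theorem numAx : (V.num m).Ax :=
  Ev.num_ax (V.evAx m) V.hB (V.a0 m) (V.aS m) (V.deg0 B V.hB _ _ (V.smo Y m))
    (V.wdvv B V.hB _ _ (V.smo Y m))

/-- **the invariants** -/
def gw : Gw C := ⟨fun m => (V.numAx m).hyc⟩

theorem itg_op (d : m.J →₀ ℕ) {l : Multiset (C.H Y)} (hl : 2 ≤ l.card) (y : C.H Y) :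
    C.itg Y (y * V.gw.op m d l) = (V.num m).gw d (y ::ₘ l) := (V.numAx m).hyc_itg d hl y

end Vir

end Crest.Agent.X262.Gwb
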