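import Crest.Agent.X262.Gwb59.Ax
import Crest.Agent.X262.Syz.Fin
import Crest.Agent.X262.End66.Eqi
import Crest.Agent.X262.End66.Rx
import Crest.Agent.X262.Form88.Snc

/-!
# Row 262, GW seam (helper59): the class-level axiom `END`

* `RsD.prim`, `RsD.mcls` : classes pulled back along a restriction;
* `Vir.gw_rs` : invariants of a target which has the equations of a subvariety;
* `Vir.hyp : End66.EndStmt → V.gw.END`.
-/

set_option autoImplicit false
set_option linter.unusedSectionVars false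

noncomputable section

namespace Crest.Agent.X262.Gwb

open Crest.Agent.X277 Crest.Agent.X277.BD
open Crest.Agent.X262.Coh Crest.Agent.X262.Vb Crest.Agent.X262.Qn Crest.Agent.X262.End66
open Crest.Agent.X262.Bub96.Tr (dot)

section Lw

variable {J : Type} [Fintype J] [DecidableEq J] {io : J → Type} [∀ j, Fintype (io j)]
  [∀ j, DecidableEq (io j)]

theorem lw_single {E : Type} [Field E] [Algebra ℂ E] (j : J) (z : Pnt io E) :
    lw (Pi.single j 1) z = ln z j := by
  rw [lw, Finset.sum_eq_single j (fun b _ hb => by simp [hb]) (by simp)]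
  simp

theorem adim_rx {J' : Type} [Fintype J'] {io' : J' → Type} [∀ j, Fintype (io' j)]
    (r : Rx io io') : adim io = adim io' :=
  Fintype.sum_equiv r.e _ _ fun j => by rw [Fintype.card_congr (r.ei j)]

end Lw

namespace RsD

variable {X Y : SV} {μ : Hom X Y} {n : Pre Y} {m : Pre X} {g : n.J → m.J} (D : RsD μ n m g)

theorem prim {E : Type} [Field E] [Algebra ℂ E] {W : RZ ℂ E} {z : Pnt m.io E} (h : Prim W z) :
    Prim W (D.pt z) := fun k => ⟨fun _ => (h _).1 _, by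
  obtain ⟨i, hi⟩ := (h (g k)).2
  exact ⟨(D.e k).symm i, by rwa [pt, Equiv.apply_symm_apply]⟩⟩

theorem mcls {B : Hb.Th} {M : Type} {Φ : MFam B n.io M} (h : MCls B n.tgt Φ) :
    MCls B m.tgt (M := M) fun E _ _ z => Φ E fun q => D.pt (z q) :=
  ⟨fun E _ _ _ z c h1 h2 h3 => h.scl E (fun q => D.pt (z q)) (fun q k => c q (g k))
      (fun _ _ => h1 _ _) (fun q => D.nz (h2 q))
      fun q => Pre.on_iff.2 (D.on (Pre.on_iff.1 (h3 q))),
    fun K E _ _ _ _ _ _ p z h1 h2 => h.nat K E p (fun q => D.pt (z q)) (fun q => D.prim (h1 q))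
      fun q => Pre.on_iff.2 (D.on (Pre.on_iff.1 (h2 q)))⟩

end RsD

namespace Vir

variable {C : Coh.Th} {B : Hb.Th} (V : Vir C B)

/-- the invariants of a target which has the equations of a subvariety -/
theorem gw_rs {X Y : SV} {μ : Hom X Y} {n : Emb Y} {m : Emb X} {e : n.J ≃ m.J}
    (D : RsD μ n.toPre m.toPre e) {A : Type} [Fintype A] {T : Tgt n.toPre.io A}
    (h : Same m.tgt ((Syz.rxD D).tgt T)) {d : n.J → ℕ} {d' : m.J → ℕ} (hd : ∀ k, d' (e k) = d k)
    {M : Type} [Fintype M] (a : M → C.H Y) :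
    GW B T d (prd fun q => (V.I.e n.toPre).fam (a q)) =
      (V.num m).gw d' (Finset.univ.val.map fun q => C.pb μ (a q)) := by
  rw [← rxStmt B (Syz.rxD D) T d d' hd, ← eqiStmt B V.hB _ _ _ d' (rk_of_good (V.good m d')) h,
    Ev.gw_eq (V.a0 m d')]
  exact GW_congr (V.a0 m d') (D.mcls (Ev.mcls (V.evAx n) a)) (Ev.mcls (V.evAx m) _)
    fun E _ _ _ z h1 h2 => Finset.prod_congr rfl fun q _ =>
      (V.hI.rs D E (z q) (h1 q) (Pre.on_iff.1 (h2 q)) _).symm

/-- `END` for the numbers -/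
theorem gw_hyp (hE : End66.EndStmt) {X Y : SV} {j : Hom X Y} {m : Emb Y} {n : Emb X}
    {e : m.J ≃ n.J} (D : RsD j m.toPre n.toPre e) {k₀ : m.J} {i₀ : (m.T k₀).io}
    (h0 : (m.T k₀).y i₀ ≠ 0) (hD : IsDv j ((m.T k₀).bd - pr ℂ ((m.T k₀).y i₀))) {d : m.J → ℕ}
    {d' : n.J → ℕ} (hd : ∀ k, d' (e k) = d k) (hk : d k₀ = 0) (b : C.H Y)
    (l : Multiset (C.H Y)) :
    (V.num m).gw d ((m.h C k₀ * b) ::ₘ l) = (V.num n).gw d' ((b ::ₘ l).map (C.pb j)) := by
  obtain ⟨M, _, _, a, rfl, -⟩ := Ev.exists_idx l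
  have hc : n.toPre.cod = m.toPre.cod + 1 := by
    have h1 := Syz.dim_add_cod n.toPre
    have h2 := Syz.dim_add_cod m.toPre
    have h3 := adim_rx (Syz.rxD D)
    have h4 := hD.dim_eq
    omega
  have hR : Rk (add m.tgt (Syz.mh_X k₀ i₀)) (m.toPre.cod + 1) d := fun E _ _ _ t ht _ hO x => by
    obtain ⟨z, hz⟩ := (Syz.rxD D).pt_surjective (t.ev x)
    have h1 := nz_ev t ht x
    have h2 := hO x
    rw [← hz] at h1 h2 ⊢
    rw [← Rx.Nm_tgt, ← hc]
    exact Syz.finrank_Nm_hyp D h0 hD (((Syz.rxD D).nz_pt z).1 h1) (((Syz.rxD D).on_tgt _ z).2 h2)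
  have hM := Ev.mcls (V.evAx m) fun q : Option M => q.elim b a
  have h0' : dot (Pi.single k₀ 1) d = 0 := by
    rw [dot, Finset.sum_eq_single k₀ (fun b _ hb => by simp [hb]) (by simp)]
    simp [hk]
  have h3 := hE B V.hB m.tgt (Syz.mh_X k₀ i₀) m.toPre.cod d (MvPolynomial.X_ne_zero _) h0'
    (V.good m d)
  have h1 := @h3 hR (Option M) _ (prd fun q => (V.I.e m.toPre).fam (q.elim b a)) none hM
  have h2 := V.gw_rs D (Syz.same_hyp D h0 hD).symm hd fun q : Option M => q.elim b a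
  rw [← map_option b, Multiset.map_map, Ev.gw_cons (V.a0 m d)]
  refine Eq.trans ?_ (h1.trans h2)
  simp only [lw_single]
  refine GW_congr (V.a0 m d) (Ev.mcls_cons (V.evAx m) _ _)
    (mcls_mul (mcls_at (cls_hc V.hB k₀) none) hM) fun E _ _ _ z h1 h2 => ?_
  rw [prd_option, map_mul, mul_assoc]
  exact congrArg (· * _) (V.hI.hc _ k₀ E _ (h1 none) (Pre.on_iff.1 (h2 none)))

/-- **END** -/
theorem hyp (hE : End66.EndStmt) : V.gw.END := by
  intro X Y j m n e hr k₀ i₀ h0 hD d d' hd hk b l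
  obtain ⟨D⟩ : Nonempty (RsD j m.toPre n.toPre e.symm) := exists_rsD fun k => by
    have := hr (e.symm k)
    rwa [e.apply_symm_apply] at this
  rcases eq_or_ne l 0 with rfl | hl
  · rw [Multiset.map_zero, V.op_one, V.op_one, map_zero]
  refine V.pd.eq_push fun y => ?_
  rw [mul_comm, V.itg_op' m d hl, mul_comm _ (C.pb j y), V.itg_op' n d' (by simpa using hl),
    Multiset.cons_swap, Multiset.cons_swap (C.pb j y), ← Multiset.map_cons, ← Multiset.map_cons]
  exact V.gw_hyp hE D h0 hD (fun k => by rw [← hd, e.apply_symm_apply]) hk b _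

end Vir

end Crest.Agent.X262.Gwb
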