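import Crest.Agent.X262.Gwb59.Defs

/-!
# Row 262, GW seam (helper59): the formal axioms of the instance

* `mh_rename`, `RsD.on`, `RsD.nz` : renumbered points;
* `tree_const`, `tree_par` : a factor of degree zero is constant on a tree;
* `Vir.gw_two` : support;  `Vir.sym`, `typA`, `low`, `str`, `dvz`, `mov`.
-/

set_option autoImplicit false
set_option linter.unusedSectionVars false

noncomputable section

namespace Crest.Agent.X262.Gwb

open Crest.Agent.X277 Crest.Agent.X277.BD Crest.Agent.X277.AN.G1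
open Crest.Agent.X262.Coh Crest.Agent.X262.Vb Crest.Agent.X262.Qn
open Crest.Agent.X262.Bub96 (Tr hv)
open Crest.Agent.X262.Node22 (scl pv_scl)
open Finset

section Gen

variable {J J' : Type} [Fintype J] [DecidableEq J] [Fintype J'] [DecidableEq J'] {io : J → Type}
  {io' : J' → Type}

theorem mh_rename (g : J → J') (e : ∀ k, io k → io' (g k)) {q : MvPolynomial (Vr io) ℂ}
    {κ : J → ℕ} (h : MH q κ) :
    MH (MvPolynomial.rename (fun v : Vr io => (⟨g v.1, e v.1 v.2⟩ : Vr io')) q)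
      (∑ k, κ k • Pi.single (g k) 1) := by
  intro s hs
  obtain ⟨u, rfl, hu⟩ := MvPolynomial.coeff_rename_ne_zero _ _ _ hs
  rw [← h hu, Finsupp.weight_apply, Finsupp.weight_apply,
    Finsupp.sum_mapDomain_index (by simp) (by simp [add_smul]), Finsupp.sum, Finsupp.sum]
  simp only [Finset.sum_apply, sum_smul]
  rw [sum_comm]
  refine sum_congr rfl fun v _ => ?_
  rw [sum_eq_single v.1 (fun k _ hk => by simp [hk]) (by simp)]
  simp

theorem tree_const {k : Type} [Field k] (t : Tr k J io) (ht : t.OK) {j : J} (hj : t.deg j = 0)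
    (x : t.Pt) (i : io j) : t.ev x j i = t.ev (t.root, none) j i := by
  induction t with
  | leaf d g =>
    obtain ⟨a, u⟩ := x
    have h1 : d j = 0 := hj
    have h2 := Polynomial.eq_C_of_natDegree_le_zero (h1 ▸ ht.1 j i)
    cases u with
    | none => rfl
    | some u =>
      change (g j i).eval u = (g j i).coeff (d j)
      rw [h1, h2]
      simp
  | glue t p s iht ihs =>
    have h1 : t.deg j + s.deg j = 0 := hj
    rcases x with ⟨a | a, u⟩
    · exact iht ht.1 (by omega) (a, u)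
    · exact ((ihs ht.2.1 (by omega) (a, u)).trans (ht.2.2.2 j i)).trans
        (iht ht.1 (by omega) (t.root, some p))

variable [∀ j, Fintype (io j)] [∀ j, DecidableEq (io j)] {A : Type} [Fintype A] {T : Tgt io A}
  {d : J → ℕ} {M M' E : Type} [Field E] [Algebra ℂ E] {y : M → Pnt io E}

theorem tree_par (h : TreePts T d y) {j : J} (hj : d j = 0) (q q' : M) :
    ∃ s : E, s ≠ 0 ∧ ∀ i, y q j i = s * y q' j i := by
  obtain ⟨i₀, h0⟩ := tree_nz h q' j
  obtain ⟨i₁, h1⟩ := tree_nz h q j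
  obtain ⟨L, _, _, _, α, t, x, c, h2, rfl, -, h4, h5⟩ := h
  have key : ∀ i, y q j i = y q j i₀ / y q' j i₀ * y q' j i := fun i => by
    rw [div_mul_eq_mul_div, eq_div_iff h0]
    refine α.injective ?_
    change α _ = α _
    simp only [map_mul, h5, tree_const t h2 hj (x q), tree_const t h2 hj (x q')]
    ring
  exact ⟨_, fun h => h1 (by rw [key, h, zero_mul]), key⟩

theorem tree_res (h : TreePts T d y) (g : M' → M) : TreePts T d fun q => y (g q) := by
  obtain ⟨L, _, _, _, α, t, x, c, h2, h3, h4, h5, h6⟩ := h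
  exact ⟨L, _, _, ‹_›, α, t, fun q => x (g q), fun q => c (g q), h2, h3, h4, fun _ => h5 _,
    fun _ => h6 _⟩

end Gen

namespace RsD

variable {X Y : SV} {μ : Hom X Y} {n : Pre Y} {m : Pre X} {g : n.J → m.J} (D : RsD μ n m g)
  {E : Type} [Field E] [Algebra ℂ E] {z : Pnt m.io E}

theorem nz (h : NZ z) : NZ (D.pt z) := fun k => by
  obtain ⟨i, hi⟩ := h (g k)
  exact ⟨(D.e k).symm i, by rwa [pt, Equiv.apply_symm_apply]⟩

theorem pt_y : D.pt m.y = scl D.c fun k i => μ.p.π (n.y k i / D.u k) :=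
  funext fun k => funext (D.eq k)

theorem pv_y {q : MvPolynomial (Vr n.io) ℂ} {κ : n.J → ℕ} (hq : MH q κ) (h0 : pv n.y q = 0) :
    pv (D.pt m.y) q = 0 := by
  have h1 := (Plc.π_aeval (p := μ.p) (fun v : Vr n.io => D.mem v.1 v.2) q).2
  have h2 := pv_scl hq (fun k => (D.u k)⁻¹) n.y
  rw [h0, mul_zero, pv] at h2
  simp only [scl, inv_mul_eq_div] at h2
  rw [h2, Plc.π_zero] at h1
  rw [pt_y, pv_scl hq, pv, ← h1, mul_zero]

theorem on (h : m.On z) : n.On (D.pt z) := fun q κ hq h0 => by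
  have h1 := h _ _ (mh_rename g (fun k => D.e k) hq)
  rw [pv, pv, MvPolynomial.aeval_rename, MvPolynomial.aeval_rename] at h1
  exact h1 (D.pv_y hq h0)

end RsD

namespace Vir

variable {C : Coh.Th} {B : Hb.Th} (V : Vir C B) {Y : SV} (m : Emb Y)

/-- **support**, two distinguished insertions -/
theorem gw_two (d : m.J → ℕ) {x y x' y' : C.H Y}
    (h : ∀ (E : Type) [Field E] [Algebra ℂ E] [Algebra.EssFiniteType ℂ E] (z z' : Pnt m.io E),
      TreePts m.tgt d ![z, z'] → V.I.ev m.toPre E z x * V.I.ev m.toPre E z' y =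
        V.I.ev m.toPre E z x' * V.I.ev m.toPre E z' y') (l : Multiset (C.H Y)) :
    (V.num m).gw d (x ::ₘ y ::ₘ l) = (V.num m).gw d (x' ::ₘ y' ::ₘ l) := by
  obtain ⟨M, _, _, a, rfl, -⟩ := Ev.exists_idx l
  rw [← map_option y, ← map_option y', Ev.gw_cons (V.a0 m d), Ev.gw_cons (V.a0 m d)]
  refine (V.a0 m d).supp _ _ (Ev.mcls_cons (V.evAx m) _ _) (Ev.mcls_cons (V.evAx m) _ _)
    fun E _ _ _ z hz => ?_
  have h1 := h E (z none) (z (some none)) (by
    convert tree_res hz ![none, some none] using 1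
    funext i
    fin_cases i <;> rfl)
  rw [prd_option, prd_option]
  exact (mul_assoc _ _ _).symm.trans ((congrArg (· * _) h1).trans (mul_assoc _ _ _))

theorem low : V.gw.LOW := fun m d _ hl => (V.numAx m).hyc_low d hl

theorem op_one (d : m.J →₀ ℕ) (x : C.H Y) : V.gw.op m d (x ::ₘ 0) = 0 := V.low m d _ (by simp)

theorem itg_op' (d : m.J →₀ ℕ) {l : Multiset (C.H Y)} (hl : l ≠ 0) (x y : C.H Y) :
    C.itg Y (y * V.gw.op m d (x ::ₘ l)) = (V.num m).gw d (y ::ₘ x ::ₘ l) :=
  V.itg_op m d (by have := Multiset.card_pos.2 hl; simp; omega) y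

theorem sym : V.gw.SYM := fun m d x y l => by
  rcases eq_or_ne l 0 with rfl | hl
  · simp only [op_one, mul_zero]
  · rw [V.itg_op' m d hl, V.itg_op' m d hl, Multiset.cons_swap]

theorem typA : V.gw.TYP := fun m d p q p' q' x y l hx hy hA h => by
  rcases eq_or_ne l 0 with rfl | hl
  · simp only [op_one, mul_zero, map_zero]
  · rw [V.itg_op' m d hl]
    refine Ev.gw_typ (V.evAx m) V.hB (V.a0 m d) (fun a ha => ?_) (Ev.mem_wt (V.evAx m) hy)
      (Ev.mem_wt (V.evAx m) hx) (by omega)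
    refine (iSup_le fun p b hb => ?_ : AA C _ ≤ _) (hA a ha)
    have h1 := Ev.mem_wt (V.evAx m) hb
    rwa [sub_self] at h1

theorem str : V.gw.STR := fun m d l hl => (V.pd _).2 _ fun y => by
  rw [mul_comm, V.itg_op m d (by simp; omega), Multiset.cons_swap]
  exact Ev.gw_str (V.evAx m) (V.a0 m d) (V.aS m d) (.inr (by simp; omega))

theorem dvz : V.gw.DIV := fun m j => (V.numAx m).hyc_div j

theorem mov : V.gw.MOV := fun m ζ n g h c d hd x l => by
  obtain ⟨D⟩ := exists_rsD (m := m.toPre) h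
  rcases eq_or_ne l 0 with rfl | hl
  · exact (V.op_one m d _).trans (by rw [show (V.gw.Q m).op d _ = 0 from V.op_one m d _, mul_zero])
  refine V.pd.ext fun y => ?_
  rw [mul_comm, V.itg_op' m d hl, mul_right_comm, V.itg_op' m d hl]
  refine V.gw_two m d (fun E _ _ _ z z' hz => ?_) l
  have h1 : NZ z := tree_nz hz 0
  have h2 : NZ z' := tree_nz hz 1
  have h3 : m.On z := Pre.on_iff.1 (tree_on hz 0)
  have h4 : m.On z' := Pre.on_iff.1 (tree_on hz 1)
  choose s h5 h6 using fun k => tree_par hz (hd k) 0 1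
  have h7 : D.pt z = fun k i => s k * D.pt z' k i := funext fun k => funext fun i => h6 k _
  have h8 : V.I.ev n E (D.pt z) c = V.I.ev n E (D.pt z') c :=
    h7 ▸ (V.hI.cls n c).scl E _ s h5 (D.nz h2) (Pre.on_iff.2 (D.on h4))
  rw [map_mul, map_mul, V.hI.rs D E z h1 h3, V.hI.rs D E z' h2 h4, h8]
  ring

/-- the formal part of the axioms -/
theorem ax (h1 : V.gw.EMB) (h2 : V.gw.END) (h3 : V.gw.PROD) : V.gw.Ax :=
  ⟨V.sym, V.typA, V.low, V.str, V.dvz, V.mov, h1, h2, h3⟩

end Vir

end Crest.Agent.X262.Gwb
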